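import Vale.Agent.P076.H523.Spec

/-! # P076 / H281 : TS.SLICE, Parseval in the normal direction (`StPAR`) -/

set_option linter.all false

open MeasureTheory Complex FourierTransform Vale.Agent.P122.C2 Vale.Agent.P076.ASM Vale.Agent.P076.H23

namespace Vale.Agent.P076.H281

open Vale.Agent.P076.X (ex sol ms)
open Vale.Agent.P076.H523

/-- the point of the plane -/
noncomputable abbrev v2 (x y : ℝ) : E 2 := WithLp.toLp 2 ![x, y]

/-- the measurable equivalence `ℝ × ℝ ≃ ℝ²` -/
noncomputable def me2 : ℝ × ℝ ≃ᵐ E 2 := (MeasurableEquiv.finTwoArrow (α := ℝ)).symm.trans (MeasurableEquiv.toLp 2 (Fin 2 → ℝ))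

theorem me2_apply (p : ℝ × ℝ) : me2 p = v2 p.1 p.2 := by
  ext i
  fin_cases i <;> rfl

theorem mp_me2 : MeasurePreserving me2 (volume : Measure (ℝ × ℝ)) (volume : Measure (E 2)) :=
  (PiLp.volume_preserving_toLp (Fin 2)).comp ((volume_preserving_finTwoArrow ℝ).symm _)

theorem int2 {F : Type*} [NormedAddCommGroup F] [NormedSpace ℝ F] (f : E 2 → F) : ∫ η, f η = ∫ p : ℝ × ℝ, f (v2 p.1 p.2) := by
  rw [← mp_me2.integral_comp me2.measurableEmbedding]
  simp_rw [me2_apply]

theorem integrable2 {F : Type*} [NormedAddCommGroup F] (f : E 2 → F) :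
    Integrable f ↔ Integrable (fun p : ℝ × ℝ => f (v2 p.1 p.2)) := by
  rw [← mp_me2.integrable_comp_emb me2.measurableEmbedding]
  have : (f ∘ me2) = fun p : ℝ × ℝ => f (v2 p.1 p.2) := by
    ext p; simp [me2_apply]
  rw [this]

theorem v2_meas : Measurable (fun p : ℝ × ℝ => v2 p.1 p.2) := by
  have : (fun p : ℝ × ℝ => v2 p.1 p.2) = me2 := by
    funext p; rw [me2_apply]
  rw [this]
  exact me2.measurable

theorem ex_norm (x : ℝ) : ‖ex x‖ = 1 := by
  unfold ex
  rw [Complex.norm_exp_ofReal_mul_I]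

theorem ex_cont : Continuous ex := by
  unfold ex
  exact Complex.continuous_exp.comp ((Complex.continuous_ofReal.comp (continuous_const.mul continuous_id)).mul continuous_const)

theorem ex_add (x y : ℝ) : ex (x + y) = ex x * ex y := by
  unfold ex
  rw [← Complex.exp_add]
  push_cast
  ring_nf

/-- Bessel's inequality -/
theorem bess {S : ℝ} (hS : 0 < S) {f : ℝ → ℂ} (hm : Measurable f) (hb : ∃ M, ∀ z, ‖f z‖ ≤ M)
    (h0 : ∀ z, f z ≠ 0 → |z| < 1 / (2 * S)) (J : Finset ℤ) :
    ∑ k ∈ J, ‖∫ z, f z * ex (k * S * z)‖ ^ 2 ≤ S⁻¹ * ∫ z, ‖f z‖ ^ 2 := by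
  obtain ⟨M, hM⟩ := hb
  have hab : -(1 / (2 * S)) < 1 / (2 * S) := by
    have : 0 < 1 / (2 * S) := by positivity
    linarith
  have hba : 1 / (2 * S) - -(1 / (2 * S)) = S⁻¹ := by field_simp; norm_num
  have hL2 : MemLp f 2 (volume.restrict (Set.Ioc (-(1 / (2 * S))) (1 / (2 * S)))) :=
    MemLp.of_bound hm.aestronglyMeasurable M (Filter.Eventually.of_forall hM)
  have h := hasSum_sq_fourierCoeffOn hab hL2
  have hz : ∀ g : ℝ → ℂ, (∀ z, g z ≠ 0 → |z| < 1 / (2 * S)) →
      ∫ z in (-(1 / (2 * S)))..(1 / (2 * S)), g z = ∫ z, g z := by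
    intro g hg
    rw [intervalIntegral.integral_of_le hab.le, setIntegral_eq_integral_of_forall_compl_eq_zero]
    intro x hx
    by_contra hc
    have h2 := hg x hc
    rw [abs_lt] at h2
    exact hx ⟨h2.1, h2.2.le⟩
  have hzr : ∀ g : ℝ → ℝ, (∀ z, g z ≠ 0 → |z| < 1 / (2 * S)) →
      ∫ z in (-(1 / (2 * S)))..(1 / (2 * S)), g z = ∫ z, g z := by
    intro g hg
    rw [intervalIntegral.integral_of_le hab.le, setIntegral_eq_integral_of_forall_compl_eq_zero]
    intro x hx
    by_contra hc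
    have h2 := hg x hc
    rw [abs_lt] at h2
    exact hx ⟨h2.1, h2.2.le⟩
  have hc : ∀ k : ℤ, ‖fourierCoeffOn hab f (-k)‖ ^ 2 = S ^ 2 * ‖∫ z, f z * ex (k * S * z)‖ ^ 2 := by
    intro k
    rw [fourierCoeffOn_eq_integral, neg_neg, hz]
    · rw [norm_smul, mul_pow, hba]
      congr 1
      · rw [Real.norm_of_nonneg (by positivity)]
        field_simp
      · congr 2
        apply integral_congr_ae
        refine Filter.Eventually.of_forall fun x => ?_
        simp only
        rw [fourier_coe_apply, smul_eq_mul, mul_comm]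
        congr 1
        unfold ex
        congr 1
        push_cast
        field_simp
    · intro z hz
      apply h0
      intro h
      apply hz
      rw [h, smul_zero]
  have h1 := sum_le_hasSum (J.map (Equiv.neg ℤ).toEmbedding) (fun i _ => by positivity) h
  rw [Finset.sum_map] at h1
  simp only [Equiv.coe_toEmbedding, Equiv.neg_apply] at h1
  rw [Finset.sum_congr rfl fun k _ => hc k, ← Finset.mul_sum, hba, inv_inv, smul_eq_mul, hzr] at h1
  · have h2 : 0 < S ^ 2 := by positivity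
    rw [← mul_le_mul_iff_right₀ h2]
    calc _ ≤ _ := h1
      _ = _ := by field_simp
  · intro z hz
    apply h0
    intro h
    apply hz
    rw [h, norm_zero]
    norm_num

theorem ic1 {f : ℝ → ℂ} (hm : Measurable f) {M w : ℝ} (hM : ∀ z, ‖f z‖ ≤ M) (h0 : ∀ z, f z ≠ 0 → |z| ≤ w) : Integrable f := by
  have h1 : IntegrableOn f (Set.Icc (-w) w) := Measure.integrableOn_of_bounded (M := M) (by simp) hm.aestronglyMeasurable
    (Filter.Eventually.of_forall hM)
  have h2 : (Set.Icc (-w) w).indicator f = f := by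
    rw [Set.indicator_eq_self]
    intro z hz
    exact abs_le.1 (h0 z hz)
  rw [← h2]
  exact (integrable_indicator_iff measurableSet_Icc).2 h1

theorem ib1 {f : ℝ → ℂ} {M w : ℝ} (hM0 : 0 ≤ M) (hw : 0 ≤ w) (hM : ∀ z, ‖f z‖ ≤ M) (h0 : ∀ z, f z ≠ 0 → |z| ≤ w) :
    ‖∫ z, f z‖ ≤ M * (2 * w) := by
  have e : ∫ z, f z = ∫ z in Set.Icc (-w) w, f z := by
    rw [setIntegral_eq_integral_of_forall_compl_eq_zero]
    intro x hx
    by_contra hc
    exact hx (abs_le.1 (h0 x hc))
  rw [e]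
  have h2 := norm_setIntegral_le_of_norm_le_const (μ := volume) (s := Set.Icc (-w) w) (C := M) (f := f) (by simp)
    (fun x _ => hM x)
  have h3 : (volume.real (Set.Icc (-w) w)) = 2 * w := by
    rw [Measure.real, Real.volume_Icc, ENNReal.toReal_ofReal (by linarith)]
    ring
  rwa [h3] at h2

theorem ic2 {f : ℝ × ℝ → ℂ} (hm : Measurable f) {M w w' : ℝ} (hM : ∀ z, ‖f z‖ ≤ M) (h0 : ∀ z, f z ≠ 0 → |z.1| ≤ w)
    (h1 : ∀ z, f z ≠ 0 → |z.2| ≤ w') : Integrable f := by
  have h1' : IntegrableOn f (Set.Icc (-w) w ×ˢ Set.Icc (-w') w') := Measure.integrableOn_of_bounded (M := M)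
    ((isCompact_Icc.prod isCompact_Icc).measure_lt_top.ne) hm.aestronglyMeasurable (Filter.Eventually.of_forall hM)
  have h2 : (Set.Icc (-w) w ×ˢ Set.Icc (-w') w').indicator f = f := by
    rw [Set.indicator_eq_self]
    intro z hz
    exact ⟨abs_le.1 (h0 z hz), abs_le.1 (h1 z hz)⟩
  rw [← h2]
  exact (integrable_indicator_iff (measurableSet_Icc.prod measurableSet_Icc)).2 h1'

/-- the integrand of the slice profile -/
noncomputable def fs (S : ℝ) (j : ℕ) (τ : ℝ) (G : E 2 → ℂ) (ξ ζ : ℝ) : ℂ :=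
  G (v2 ξ ζ) * (((64 * S * ζ) ^ j : ℝ) : ℂ) * ex (-(τ * ζ ^ 2))

theorem sl_eq (S : ℝ) (j : ℕ) (y τ : ℝ) (G : E 2 → ℂ) (ξ : ℝ) :
    sl S j y τ G ξ = ex (-(τ * ξ ^ 2)) * ∫ ζ : ℝ, fs S j τ G ξ ζ * ex (y * ζ) := by
  unfold sl fs
  congr 1
  apply integral_congr_ae
  refine Filter.Eventually.of_forall fun ζ => ?_
  simp only
  rw [show y * ζ - τ * ζ ^ 2 = -(τ * ζ ^ 2) + y * ζ by ring, ex_add]
  ring

theorem fs_meas {w : ℝ} {G : E 2 → ℂ} (h : Str w G) (S : ℝ) (j : ℕ) (τ : ℝ) : Measurable (fun p : ℝ × ℝ => fs S j τ G p.1 p.2) := by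
  unfold fs
  have h1 : Measurable (fun p : ℝ × ℝ => G (v2 p.1 p.2)) := h.meas.comp v2_meas
  have h2 : Continuous (fun p : ℝ × ℝ => (((64 * S * p.2) ^ j : ℝ) : ℂ) * ex (-(τ * p.2 ^ 2))) := by
    refine (Complex.continuous_ofReal.comp (by fun_prop)).mul (ex_cont.comp (by fun_prop))
  have e : (fun p : ℝ × ℝ => G (v2 p.1 p.2) * (((64 * S * p.2) ^ j : ℝ) : ℂ) * ex (-(τ * p.2 ^ 2))) =
      fun p : ℝ × ℝ => G (v2 p.1 p.2) * ((((64 * S * p.2) ^ j : ℝ) : ℂ) * ex (-(τ * p.2 ^ 2))) := by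
    funext p; rw [mul_assoc]
  rw [e]
  exact h1.mul h2.measurable

theorem fs_ne {S : ℝ} {j : ℕ} {τ : ℝ} {G : E 2 → ℂ} {ξ ζ : ℝ} (h : fs S j τ G ξ ζ ≠ 0) : G (v2 ξ ζ) ≠ 0 := by
  intro h0
  apply h
  simp [fs, h0]

theorem fs_norm {S w τ : ℝ} {G : E 2 → ℂ} {j : ℕ} (hS : 0 < S) (hw : S * w ≤ 1 / 128) (h : Str w G) (ξ ζ : ℝ) :
    ‖fs S j τ G ξ ζ‖ ≤ (1 / 2) ^ j * ‖G (v2 ξ ζ)‖ := by
  by_cases h0 : G (v2 ξ ζ) = 0
  · simp [fs, h0]
  · unfold fs
    rw [norm_mul, norm_mul, ex_norm, mul_one, Complex.norm_real, Real.norm_eq_abs, abs_pow, mul_comm]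
    gcongr
    have h1 := h.s1 _ h0
    simp only [PiLp.toLp_apply, Matrix.cons_val_one, Matrix.cons_val_fin_one] at h1
    rw [abs_mul, abs_mul, abs_of_pos hS, abs_of_pos (by norm_num : (0 : ℝ) < 64)]
    have : S * |ζ| ≤ S * w := by gcongr
    linarith

theorem stPAR : StPAR := by
  refine ⟨1, one_pos, fun S w τ G j hS hw hSw h => ⟨fun y => ?_, fun J => ?_⟩⟩
  · obtain ⟨b, hb⟩ := h.bdd
    have hb0 : 0 ≤ b := (norm_nonneg _).trans (hb 0)
    have hm : Measurable (fun p : ℝ × ℝ => fs S j τ G p.1 p.2 * ex (y * p.2)) :=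
      (fs_meas h S j τ).mul (ex_cont.comp (continuous_const.mul continuous_snd)).measurable
    refine ⟨?_, ⟨1 * (b * (2 * w)), fun ξ => ?_⟩, fun ξ hξ => ?_⟩
    · have e : sl S j y τ G = fun ξ => ex (-(τ * ξ ^ 2)) * ∫ ζ : ℝ, fs S j τ G ξ ζ * ex (y * ζ) := funext fun ξ => sl_eq _ _ _ _ _ _
      rw [e]
      refine (ex_cont.comp (by fun_prop)).measurable.mul ?_
      exact (hm.stronglyMeasurable.integral_prod_right (f := fun ξ ζ => fs S j τ G ξ ζ * ex (y * ζ))).measurable
    · rw [sl_eq, norm_mul, ex_norm]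
      gcongr
      refine ib1 hb0 hw.le (fun z => ?_) (fun z hz => ?_)
      · rw [norm_mul, ex_norm, mul_one]
        refine (fs_norm hS hSw h ξ z).trans ?_
        calc (1 / 2 : ℝ) ^ j * ‖G (v2 ξ z)‖ ≤ 1 * b := by
              gcongr
              · exact pow_le_one₀ (by norm_num) (by norm_num)
              · exact hb _
          _ = b := one_mul b
      · have h1 := h.s1 _ (fs_ne (left_ne_zero_of_mul hz))
        simpa using h1
    · by_contra hc
      push Not at hc
      apply hξ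
      unfold sl
      simp [hc]
  · obtain ⟨b, hb⟩ := h.bdd
    have hb0 : 0 ≤ b := (norm_nonneg _).trans (hb 0)
    have hG2 : Integrable (fun p : ℝ × ℝ => ‖G (v2 p.1 p.2)‖ ^ 2) := by
      have h1 : Integrable (fun p : ℝ × ℝ => ((‖G (v2 p.1 p.2)‖ ^ 2 : ℝ) : ℂ)) := by
        refine ic2 (M := b ^ 2) (w := 1) (w' := w) ?_ (fun z => ?_) (fun z hz => ?_) (fun z hz => ?_)
        · exact Complex.measurable_ofReal.comp ((h.meas.comp v2_meas).norm.pow_const 2)
        · rw [Complex.norm_real, Real.norm_of_nonneg (by positivity)]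
          gcongr
          exact hb _
        · have : G (v2 z.1 z.2) ≠ 0 := by
            intro h0; apply hz; simp [h0]
          simpa using h.s0 _ this
        · have : G (v2 z.1 z.2) ≠ 0 := by
            intro h0; apply hz; simp [h0]
          simpa using h.s1 _ this
      exact h1.re
    have key : ∀ ξ, ∑ k ∈ J, ‖sl S j (k * S) τ G ξ‖ ^ 2 ≤ S⁻¹ * ((1 / 4) ^ j * ∫ ζ, ‖G (v2 ξ ζ)‖ ^ 2) := by
      intro ξ
      have h1 : ∀ k : ℤ, ‖sl S j (k * S) τ G ξ‖ ^ 2 = ‖∫ ζ : ℝ, fs S j τ G ξ ζ * ex (k * S * ζ)‖ ^ 2 := by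
        intro k
        rw [sl_eq, norm_mul, ex_norm, one_mul]
      rw [Finset.sum_congr rfl fun k _ => h1 k]
      have hmξ : Measurable (fun ζ => fs S j τ G ξ ζ) := (fs_meas h S j τ).comp measurable_prodMk_left
      refine (bess hS hmξ ⟨b, fun z => ?_⟩ (fun z hz => ?_) J).trans ?_
      · refine (fs_norm hS hSw h ξ z).trans ?_
        calc (1 / 2 : ℝ) ^ j * ‖G (v2 ξ z)‖ ≤ 1 * b := by
              gcongr
              · exact pow_le_one₀ (by norm_num) (by norm_num)
              · exact hb _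
          _ = b := one_mul b
      · have h2 := h.s1 _ (fs_ne hz)
        simp only [PiLp.toLp_apply, Matrix.cons_val_one, Matrix.cons_val_fin_one] at h2
        rw [lt_div_iff₀ (by positivity)]
        have : S * |z| ≤ S * w := by gcongr
        linarith
      · gcongr
        rw [← integral_const_mul]
        have hi : Integrable (fun ζ => ‖G (v2 ξ ζ)‖ ^ 2) := by
          have h1 : Integrable (fun ζ => ((‖G (v2 ξ ζ)‖ ^ 2 : ℝ) : ℂ)) := by
            refine ic1 (M := b ^ 2) (w := w) ?_ (fun z => ?_) (fun z hz => ?_)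
            · exact Complex.measurable_ofReal.comp (((h.meas.comp v2_meas).comp measurable_prodMk_left).norm.pow_const 2)
            · rw [Complex.norm_real, Real.norm_of_nonneg (by positivity)]
              gcongr
              exact hb _
            · have : G (v2 ξ z) ≠ 0 := by
                intro h0; apply hz; simp [h0]
              simpa using h.s1 _ this
          exact h1.re
        refine integral_mono_of_nonneg (Filter.Eventually.of_forall fun ζ => by positivity) (hi.const_mul _)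
          (Filter.Eventually.of_forall fun ζ => ?_)
        simp only
        have h3 := fs_norm (τ := τ) (j := j) hS hSw h ξ ζ
        calc ‖fs S j τ G ξ ζ‖ ^ 2 ≤ ((1 / 2) ^ j * ‖G (v2 ξ ζ)‖) ^ 2 := by gcongr
          _ = (1 / 4) ^ j * ‖G (v2 ξ ζ)‖ ^ 2 := by
            rw [mul_pow, ← pow_mul, mul_comm j 2, pow_mul]
            norm_num
    have hmsl : ∀ k : ℤ, Integrable (fun ξ => ‖sl S j (k * S) τ G ξ‖ ^ 2) := by
      intro k
      have hm : Measurable (fun p : ℝ × ℝ => fs S j τ G p.1 p.2 * ex (k * S * p.2)) :=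
        (fs_meas h S j τ).mul (ex_cont.comp (continuous_const.mul continuous_snd)).measurable
      have e : sl S j (k * S) τ G = fun ξ => ex (-(τ * ξ ^ 2)) * ∫ ζ : ℝ, fs S j τ G ξ ζ * ex (k * S * ζ) :=
        funext fun ξ => sl_eq _ _ _ _ _ _
      have hms : Measurable (sl S j (k * S) τ G) := by
        rw [e]
        refine (ex_cont.comp (by fun_prop)).measurable.mul ?_
        exact (hm.stronglyMeasurable.integral_prod_right (f := fun ξ ζ => fs S j τ G ξ ζ * ex (k * S * ζ))).measurable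
      have h1 : Integrable (fun ξ => ((‖sl S j (k * S) τ G ξ‖ ^ 2 : ℝ) : ℂ)) := by
        refine ic1 (M := (b * (2 * w)) ^ 2) (w := 1) ?_ (fun z => ?_) (fun z hz => ?_)
        · exact Complex.measurable_ofReal.comp (hms.norm.pow_const 2)
        · rw [Complex.norm_real, Real.norm_of_nonneg (by positivity)]
          gcongr
          rw [sl_eq, norm_mul, ex_norm, one_mul]
          refine ib1 hb0 hw.le (fun z => ?_) (fun z hz => ?_)
          · rw [norm_mul, ex_norm, mul_one]
            refine (fs_norm hS hSw h _ z).trans ?_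
            calc (1 / 2 : ℝ) ^ j * ‖G (v2 _ z)‖ ≤ 1 * b := by
                  gcongr
                  · exact pow_le_one₀ (by norm_num) (by norm_num)
                  · exact hb _
              _ = b := one_mul b
          · have h1 := h.s1 _ (fs_ne (left_ne_zero_of_mul hz))
            simpa using h1
        · by_contra hc
          apply hz
          have : ∀ ζ, G (v2 z ζ) = 0 := by
            intro ζ
            by_contra h0
            exact hc (by simpa using h.s0 _ h0)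
          unfold sl
          simp [this]
      exact h1.re
    have e1 : ∑ k ∈ J, ms (sl S j (k * S) τ G) = ∫ ξ, ∑ k ∈ J, ‖sl S j (k * S) τ G ξ‖ ^ 2 := by
      rw [integral_finset_sum J fun k _ => hmsl k]
      rfl
    have e2 : ∫ η, ‖G η‖ ^ 2 = ∫ ξ, ∫ ζ, ‖G (v2 ξ ζ)‖ ^ 2 := by
      rw [int2, Measure.volume_eq_prod, integral_prod _ (by rwa [Measure.volume_eq_prod] at hG2)]
    rw [e1, e2]
    have h5 : ∫ ξ, ∑ k ∈ J, ‖sl S j (k * S) τ G ξ‖ ^ 2 ≤ ∫ ξ, S⁻¹ * ((1 / 4) ^ j * ∫ ζ, ‖G (v2 ξ ζ)‖ ^ 2) := by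
      refine integral_mono_of_nonneg (Filter.Eventually.of_forall fun ξ => by positivity) ?_ (Filter.Eventually.of_forall key)
      refine Integrable.const_mul (Integrable.const_mul ?_ _) _
      rw [Measure.volume_eq_prod] at hG2
      exact hG2.integral_prod_left
    refine h5.trans (le_of_eq ?_)
    rw [integral_const_mul, integral_const_mul]
    ring

end Vale.Agent.P076.H281
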