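import Vale.Agent.P076.H281.SlKer
import Vale.Agent.P076.H281.SlPar
import Vale.Agent.P076.H972.Basic

/-! # P076 / H281 : TS.SLICE, energy of the slices (`StEN`) -/

set_option linter.all false

open MeasureTheory Complex FourierTransform Vale.Agent.P122.C2 Vale.Agent.P076.ASM Vale.Agent.P076.H23

namespace Vale.Agent.P076.H281

open Vale.Agent.P076.X (ex sol ms)
open Vale.Agent.P076.H523

/-- the data at the horizontal position `x'` and the time `t` -/
noncomputable def ph (G : E 2 → ℂ) (x' t : ℝ) (p : ℝ × ℝ) : ℂ := G (v2 p.1 p.2) * ex (x' * p.1 - t * p.1 ^ 2) * ex (-(t * p.2 ^ 2))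

theorem ph_meas {w : ℝ} {G : E 2 → ℂ} (h : Str w G) (x' t : ℝ) : Measurable (ph G x' t) := by
  unfold ph
  refine ((h.meas.comp v2_meas).mul (ex_cont.comp (by fun_prop)).measurable).mul (ex_cont.comp (by fun_prop)).measurable

theorem ph_norm (G : E 2 → ℂ) (x' t : ℝ) (p : ℝ × ℝ) : ‖ph G x' t p‖ = ‖G (v2 p.1 p.2)‖ := by
  unfold ph
  rw [norm_mul, norm_mul, ex_norm, ex_norm, mul_one, mul_one]

theorem ph_ne {G : E 2 → ℂ} {x' t : ℝ} {p : ℝ × ℝ} (h : ph G x' t p ≠ 0) : G (v2 p.1 p.2) ≠ 0 := by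
  intro h0; apply h; simp [ph, h0]

theorem evo_ph (G : E 2 → ℂ) (x' y' t : ℝ) : evo G (v2 x' y') t 0 = ∫ p : ℝ × ℝ, ph G x' t p * ex (y' * p.2) := by
  unfold evo
  rw [int2]
  apply integral_congr_ae
  refine Filter.Eventually.of_forall fun p => ?_
  have e1 : (inner ℝ (v2 x' y') (v2 p.1 p.2) : ℝ) = x' * p.1 + y' * p.2 := by
    simp [PiLp.inner_apply, Fin.sum_univ_two]
    ring
  have e2 : ‖v2 p.1 p.2‖ ^ 2 = p.1 ^ 2 + p.2 ^ 2 := by
    rw [EuclideanSpace.norm_eq, Real.sq_sqrt (by positivity), Fin.sum_univ_two]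
    simp
  simp only [e1, e2]
  unfold ph
  have e3 : cexp (2 * Real.pi * I * ((x' * p.1 + y' * p.2 - t * (p.1 ^ 2 + p.2 ^ 2) : ℝ) : ℂ) - ((0 * (p.1 ^ 2 + p.2 ^ 2) : ℝ) : ℂ)) =
      ex (x' * p.1 - t * p.1 ^ 2) * ex (-(t * p.2 ^ 2)) * ex (y' * p.2) := by
    rw [← ex_add, ← ex_add]
    unfold ex
    congr 1
    push_cast
    ring
  rw [e3]
  ring

theorem ph_mul_int {w : ℝ} {G : E 2 → ℂ} (h : Str w G) (x' t : ℝ) {f : ℝ → ℂ} (hf : Measurable f) {M : ℝ}
    (hM : ∀ ζ, |ζ| ≤ w → ‖f ζ‖ ≤ M) : Integrable (fun p : ℝ × ℝ => ph G x' t p * f p.2) := by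
  obtain ⟨b, hb⟩ := h.bdd
  have hb0 : 0 ≤ b := (norm_nonneg _).trans (hb 0)
  have hz : ∀ z : ℝ × ℝ, ph G x' t z * f z.2 ≠ 0 → |z.1| ≤ 1 ∧ |z.2| ≤ w := by
    intro z hz
    have h1 := ph_ne (left_ne_zero_of_mul hz)
    exact ⟨by simpa using h.s0 _ h1, by simpa using h.s1 _ h1⟩
  refine ic2 (M := b * max M 0) (w := 1) (w' := w) ((ph_meas h x' t).mul (hf.comp measurable_snd)) (fun z => ?_)
    (fun z hz' => (hz z hz').1) (fun z hz' => (hz z hz').2)
  by_cases h0 : ph G x' t z * f z.2 = 0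
  · rw [h0, norm_zero]; positivity
  · rw [norm_mul, ph_norm]
    gcongr
    · exact hb _
    · exact (hM _ (hz z h0).2).trans (le_max_left _ _)

theorem sol_sl {S w : ℝ} {G : E 2 → ℂ} (h : Str w G) (j : ℕ) (y τ x' t : ℝ) :
    sol (sl S j y τ G) x' (t - τ) = ∫ p : ℝ × ℝ, ph G x' t p * ((((64 * S * p.2) ^ j : ℝ) : ℂ) * ex (y * p.2 + (t - τ) * p.2 ^ 2)) := by
  have hm : Measurable (fun ζ : ℝ => (((64 * S * ζ) ^ j : ℝ) : ℂ) * ex (y * ζ + (t - τ) * ζ ^ 2)) :=
    ((Complex.continuous_ofReal.comp (by fun_prop)).mul (ex_cont.comp (by fun_prop))).measurable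
  have hi := ph_mul_int h x' t hm (M := (64 * |S| * w) ^ j) (fun ζ hζ => by
    rw [norm_mul, ex_norm, mul_one, Complex.norm_real, Real.norm_eq_abs, abs_pow, abs_mul, abs_mul,
      abs_of_pos (by norm_num : (0 : ℝ) < 64)]
    gcongr)
  rw [Measure.volume_eq_prod, integral_prod _ (by rwa [Measure.volume_eq_prod] at hi)]
  unfold sol
  apply integral_congr_ae
  refine Filter.Eventually.of_forall fun ξ => ?_
  simp only
  unfold sl
  rw [mul_comm (ex (-(τ * ξ ^ 2))), mul_assoc, ← ex_add, ← integral_mul_const]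
  apply integral_congr_ae
  refine Filter.Eventually.of_forall fun ζ => ?_
  simp only [ph]
  have e1 : ex (y * ζ - τ * ζ ^ 2) * ex (-(τ * ξ ^ 2) + (x' * ξ - (t - τ) * ξ ^ 2)) =
      ex (x' * ξ - t * ξ ^ 2) * ex (-(t * ζ ^ 2)) * ex (y * ζ + (t - τ) * ζ ^ 2) := by
    rw [← ex_add, ← ex_add, ← ex_add]
    congr 1
    ring
  calc _ = G (v2 ξ ζ) * (((64 * S * ζ) ^ j : ℝ) : ℂ) *
        (ex (y * ζ - τ * ζ ^ 2) * ex (-(τ * ξ ^ 2) + (x' * ξ - (t - τ) * ξ ^ 2))) := by ring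
    _ = _ := by rw [e1]; ring

theorem r4_int : Integrable (fun r : ℝ => ((1 + |r|) ^ 4)⁻¹) := by
  refine Integrable.mono' integrable_inv_one_add_sq ?_ (Filter.Eventually.of_forall fun x => ?_)
  · exact (Continuous.inv₀ (by fun_prop) (fun x => by positivity)).aestronglyMeasurable
  · rw [Real.norm_of_nonneg (by positivity)]
    gcongr
    nlinarith [abs_nonneg x, sq_abs x, sq_nonneg (|x| ^ 2), pow_nonneg (abs_nonneg x) 3]

/-- Cauchy-Schwarz with a weight -/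
theorem cs {a f : ℝ → ℝ} (ha : Integrable a) (ha0 : ∀ r, 0 ≤ a r) (hf : Continuous f) {M : ℝ} (hM : ∀ r, |f r| ≤ M) :
    (∫ r, a r * f r) ^ 2 ≤ (∫ r, a r) * ∫ r, a r * f r ^ 2 := by
  have h1 : Integrable (fun r => a r * f r) := ha.mul_bdd (c := M) hf.aestronglyMeasurable
    (Filter.Eventually.of_forall fun r => by simpa using hM r)
  have h2 : Integrable (fun r => a r * f r ^ 2) := ha.mul_bdd (c := M ^ 2) (hf.pow 2).aestronglyMeasurable
    (Filter.Eventually.of_forall fun r => by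
      rw [Real.norm_of_nonneg (by positivity), ← sq_abs]
      gcongr
      exact hM r)
  have h3 : ∀ c : ℝ, 0 ≤ (∫ r, a r) * (c * c) + (-2 * ∫ r, a r * f r) * c + ∫ r, a r * f r ^ 2 := by
    intro c
    have e : (∫ r, a r) * (c * c) + (-2 * ∫ r, a r * f r) * c + ∫ r, a r * f r ^ 2 = ∫ r, a r * (f r - c) ^ 2 := by
      have e1 : (fun r => a r * (f r - c) ^ 2) = fun r => (c * c) * a r + (-2 * c) * (a r * f r) + a r * f r ^ 2 := by
        funext r; ring
      have i1 : Integrable (fun r => (c * c) * a r) := ha.const_mul _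
      have i2 : Integrable (fun r => (-2 * c) * (a r * f r)) := h1.const_mul _
      have i3 : Integrable (fun r => (c * c) * a r + (-2 * c) * (a r * f r)) := i1.add i2
      rw [e1, integral_add i3 h2, integral_add i1 i2, integral_const_mul, integral_const_mul]
      ring
    rw [e]
    exact integral_nonneg fun r => mul_nonneg (ha0 r) (sq_nonneg _)
  have h4 := discrim_le_zero h3
  unfold discrim at h4
  nlinarith

/-- the slice as a mean of the solution over lines -/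
theorem sol_sl_ker {S w : ℝ} (hS : 0 < S) (hSw : S * w ≤ 1 / 128) {G : E 2 → ℂ} (h : Str w G) (j : ℕ) (y τ x' t τ' : ℝ)
    (hτ' : τ' = 2 * Real.pi * (t - τ) / (64 * S) ^ 2) (K : ℝ → ℂ) (hKc : Continuous K) (hKi : Integrable K)
    (hK : ∀ v : ℝ, |v| ≤ 1 / 2 → ∫ r, K r * ex (-(r * v)) = (v : ℂ) ^ j * cexp (I * τ' * (v : ℂ) ^ 2)) :
    sol (sl S j y τ G) x' (t - τ) = ∫ r, K r * evo G (v2 x' (y - 64 * S * r)) t 0 := by
  rw [sol_sl h]
  have e1 : ∀ p : ℝ × ℝ, ph G x' t p * ((((64 * S * p.2) ^ j : ℝ) : ℂ) * ex (y * p.2 + (t - τ) * p.2 ^ 2)) =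
      ∫ r, ph G x' t p * ex (y * p.2) * (K r * ex (-(r * (64 * S * p.2)))) := by
    intro p
    rw [integral_const_mul]
    by_cases h0 : ph G x' t p = 0
    · simp [h0]
    · have h1 := h.s1 _ (ph_ne h0)
      simp only [PiLp.toLp_apply, Matrix.cons_val_one, Matrix.cons_val_fin_one] at h1
      have h2 : |64 * S * p.2| ≤ 1 / 2 := by
        rw [abs_mul, abs_mul, abs_of_pos hS, abs_of_pos (by norm_num : (0 : ℝ) < 64)]
        have : S * |p.2| ≤ S * w := by gcongr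
        linarith
      rw [hK _ h2, ex_add]
      have e3 : cexp (I * τ' * ((64 * S * p.2 : ℝ) : ℂ) ^ 2) = ex ((t - τ) * p.2 ^ 2) := by
        rw [hτ']
        unfold ex
        congr 1
        push_cast
        have : (S : ℂ) ≠ 0 := by exact_mod_cast hS.ne'
        field_simp
      rw [e3]
      push_cast
      ring
  simp_rw [e1]
  have hi : Integrable (fun q : (ℝ × ℝ) × ℝ => ph G x' t q.1 * ex (y * q.1.2) * (K q.2 * ex (-(q.2 * (64 * S * q.1.2)))))
      ((volume : Measure (ℝ × ℝ)).prod volume) := by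
    have i1 : Integrable (fun p : ℝ × ℝ => ph G x' t p * ex (y * p.2)) :=
      ph_mul_int h x' t (ex_cont.comp (by fun_prop)).measurable (M := 1) (fun ζ _ => (ex_norm _).le)
    have i2 := i1.mul_prod hKi
    have i3 := i2.mul_bdd (c := 1) (g := fun q : (ℝ × ℝ) × ℝ => ex (-(q.2 * (64 * S * q.1.2))))
      (ex_cont.comp (by fun_prop)).aestronglyMeasurable (Filter.Eventually.of_forall fun q => (ex_norm _).le)
    refine i3.congr (Filter.Eventually.of_forall fun q => ?_)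
    simp only
    ring
  rw [integral_integral_swap hi]
  apply integral_congr_ae
  refine Filter.Eventually.of_forall fun r => ?_
  simp only
  rw [evo_ph, ← integral_const_mul]
  apply integral_congr_ae
  refine Filter.Eventually.of_forall fun p => ?_
  simp only
  rw [show (y - 64 * S * r) * p.2 = y * p.2 + -(r * (64 * S * p.2)) by ring, ex_add]
  ring

theorem evo_cont {w : ℝ} {G : E 2 → ℂ} (h : Str w G) (t : ℝ) : Continuous (fun p : ℝ × ℝ => evo G (v2 p.1 p.2) t 0) := by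
  have e : (fun p : ℝ × ℝ => evo G (v2 p.1 p.2) t 0) = fun p => ∫ q : ℝ × ℝ, ph G 0 t q * (ex (p.1 * q.1) * ex (p.2 * q.2)) := by
    funext p
    rw [evo_ph]
    apply integral_congr_ae
    refine Filter.Eventually.of_forall fun q => ?_
    simp only [ph]
    rw [show p.1 * q.1 - t * q.1 ^ 2 = (0 * q.1 - t * q.1 ^ 2) + p.1 * q.1 by ring, ex_add]
    ring
  rw [e]
  refine continuous_of_dominated (bound := fun q => ‖ph G 0 t q‖) (fun p => ?_) (fun p => ?_) ?_ ?_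
  · exact ((ph_meas h 0 t).mul (((ex_cont.comp (by fun_prop)).mul (ex_cont.comp (by fun_prop))).measurable)).aestronglyMeasurable
  · refine Filter.Eventually.of_forall fun q => ?_
    rw [norm_mul, norm_mul, ex_norm, ex_norm, mul_one, mul_one]
  · have := ph_mul_int h 0 t (f := fun _ => 1) measurable_const (M := 1) (fun ζ _ => by simp)
    simpa using this.norm
  · refine Filter.Eventually.of_forall fun q => ?_
    exact continuous_const.mul ((ex_cont.comp (by fun_prop)).mul (ex_cont.comp (by fun_prop)))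

theorem evo_bd {w : ℝ} {G : E 2 → ℂ} (h : Str w G) (t : ℝ) : ∃ B : ℝ, 0 ≤ B ∧ ∀ x y : ℝ, ‖evo G (v2 x y) t 0‖ ≤ B := by
  refine ⟨∫ q : ℝ × ℝ, ‖G (v2 q.1 q.2)‖, integral_nonneg fun _ => norm_nonneg _, fun x y => ?_⟩
  rw [evo_ph]
  refine (norm_integral_le_integral_norm _).trans (le_of_eq ?_)
  apply integral_congr_ae
  refine Filter.Eventually.of_forall fun q => ?_
  simp only
  rw [norm_mul, ph_norm, ex_norm, mul_one]

theorem r4s_int {w : ℝ} (hw : 0 < w) (a : ℝ) : Integrable (fun u : ℝ => ((1 + w * |a - u|) ^ 4)⁻¹) := by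
  have h1 : Integrable (fun u : ℝ => ((1 + |w * u|) ^ 4)⁻¹) := r4_int.comp_mul_left' hw.ne'
  have h2 := h1.comp_sub_left a
  refine h2.congr (Filter.Eventually.of_forall fun u => ?_)
  simp only [abs_mul, abs_of_pos hw]

/-- pointwise bound of a slice by the mean over lines -/
theorem sl_pt : ∃ C : ℝ, 0 < C ∧ ∀ (S w y τ : ℝ) (G : E 2 → ℂ) (x1 t : ℝ) (j : ℕ), 0 < S → 1 / 256 ≤ S * w → S * w ≤ 1 / 128 →
    Str w G → |x1 - y| ≤ S → |t - τ| ≤ S ^ 2 → ∀ x' : ℝ,
    ‖sol (sl S j y τ G) x' (t - τ)‖ ^ 2 ≤ C * (w * ∫ u : ℝ, ((1 + w * |x1 - u|) ^ 4)⁻¹ * ‖evo G (v2 x' u) t 0‖ ^ 2) := by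
  obtain ⟨C, hC, hk⟩ := kern
  set c4 : ℝ := ∫ r : ℝ, ((1 + |r|) ^ 4)⁻¹ with hc4
  have hc40 : 0 ≤ c4 := integral_nonneg fun r => by positivity
  refine ⟨C * c4 * (C * 64) + 1, by positivity, fun S w y τ G x1 t j hS h1 h2 hG hxy ht x' => ?_⟩
  have hw : 0 < w := by
    by_contra hc
    push Not at hc
    have : S * w ≤ 0 := mul_nonpos_of_nonneg_of_nonpos hS.le hc
    linarith
  have hτ : |2 * Real.pi * (t - τ) / (64 * S) ^ 2| ≤ 1 := by
    rw [abs_div, abs_mul, abs_of_pos (by positivity : (0 : ℝ) < 2 * Real.pi), abs_of_pos (by positivity : (0 : ℝ) < (64 * S) ^ 2),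
      div_le_one (by positivity)]
    have h5 := Real.pi_lt_four
    calc 2 * Real.pi * |t - τ| ≤ 2 * 4 * S ^ 2 := by gcongr
      _ ≤ (64 * S) ^ 2 := by nlinarith [sq_nonneg S]
  obtain ⟨K, hKc, hKb, hK⟩ := hk j _ hτ
  have hKi : Integrable K := Integrable.mono' (r4_int.const_mul C) hKc.aestronglyMeasurable (Filter.Eventually.of_forall hKb)
  obtain ⟨B, hB0, hB⟩ := evo_bd hG t
  have hfc : Continuous (fun r : ℝ => ‖evo G (v2 x' (y - 64 * S * r)) t 0‖) :=
    ((evo_cont hG t).comp (by fun_prop : Continuous fun r : ℝ => (x', y - 64 * S * r))).norm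
  have hfM : ∀ r : ℝ, |‖evo G (v2 x' (y - 64 * S * r)) t 0‖| ≤ B := fun r => by
    rw [abs_of_nonneg (norm_nonneg _)]; exact hB _ _
  have hcs := cs (a := fun r => ‖K r‖) (f := fun r : ℝ => ‖evo G (v2 x' (y - 64 * S * r)) t 0‖) hKi.norm
    (fun r => norm_nonneg _) hfc hfM
  have hA : ‖sol (sl S j y τ G) x' (t - τ)‖ ≤ ∫ r, ‖K r‖ * ‖evo G (v2 x' (y - 64 * S * r)) t 0‖ := by
    rw [sol_sl_ker hS h2 hG j y τ x' t _ rfl K hKc hKi hK]
    refine (norm_integral_le_integral_norm _).trans (le_of_eq ?_)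
    simp_rw [norm_mul]
  have hB1 : ∫ r, ‖K r‖ ≤ C * c4 := by
    rw [hc4, ← integral_const_mul]
    exact integral_mono hKi.norm (r4_int.const_mul C) hKb
  have i4 : Integrable (fun r : ℝ => ((1 + |r|) ^ 4)⁻¹ * ‖evo G (v2 x' (y - 64 * S * r)) t 0‖ ^ 2) :=
    r4_int.mul_bdd (c := B ^ 2) (hfc.pow 2).aestronglyMeasurable (Filter.Eventually.of_forall fun r => by
      rw [Real.norm_of_nonneg (by positivity)]
      gcongr
      exact hB _ _)
  have hB2 : ∫ r, ‖K r‖ * ‖evo G (v2 x' (y - 64 * S * r)) t 0‖ ^ 2 ≤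
      C * ∫ r : ℝ, ((1 + |r|) ^ 4)⁻¹ * ‖evo G (v2 x' (y - 64 * S * r)) t 0‖ ^ 2 := by
    rw [← integral_const_mul]
    refine integral_mono_of_nonneg (Filter.Eventually.of_forall fun r => by positivity) (i4.const_mul C)
      (Filter.Eventually.of_forall fun r => ?_)
    simp only
    rw [← mul_assoc]
    gcongr
    exact hKb r
  have iu : Integrable (fun u : ℝ => ((1 + w * |x1 - u|) ^ 4)⁻¹ * ‖evo G (v2 x' u) t 0‖ ^ 2) := by
    have hgc : Continuous (fun u : ℝ => ‖evo G (v2 x' u) t 0‖ ^ 2) :=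
      ((evo_cont hG t).comp (by fun_prop : Continuous fun u : ℝ => (x', u))).norm.pow 2
    exact (r4s_int hw x1).mul_bdd (c := B ^ 2) hgc.aestronglyMeasurable (Filter.Eventually.of_forall fun r => by
      rw [Real.norm_of_nonneg (by positivity)]
      gcongr
      exact hB _ _)
  have hB3 : ∫ r : ℝ, ((1 + |r|) ^ 4)⁻¹ * ‖evo G (v2 x' (y - 64 * S * r)) t 0‖ ^ 2 ≤
      64 * (w * ∫ u : ℝ, ((1 + w * |x1 - u|) ^ 4)⁻¹ * ‖evo G (v2 x' u) t 0‖ ^ 2) := by
    set g : ℝ → ℝ := fun u => ((1 + |(y - u) / (64 * S)|) ^ 4)⁻¹ * ‖evo G (v2 x' u) t 0‖ ^ 2 with hg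
    have e1 : (fun r : ℝ => ((1 + |r|) ^ 4)⁻¹ * ‖evo G (v2 x' (y - 64 * S * r)) t 0‖ ^ 2) = fun r => g (y - 64 * S * r) := by
      funext r
      simp only [hg]
      rw [show (y - (y - 64 * S * r)) / (64 * S) = r by field_simp; ring]
    have e2 : ∫ r, g (y - 64 * S * r) = (64 * S)⁻¹ * ∫ u, g u := by
      have h5 := Measure.integral_comp_mul_left (fun u => g (y - u)) (64 * S)
      rw [h5, integral_sub_left_eq_self g volume y, abs_of_pos (by positivity), smul_eq_mul]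
    rw [e1, e2]
    have h6 : (64 * S)⁻¹ ≤ 4 * w := by
      rw [inv_le_iff_one_le_mul₀ (by positivity)]
      linarith
    have h7 : ∫ u, g u ≤ 16 * ∫ u : ℝ, ((1 + w * |x1 - u|) ^ 4)⁻¹ * ‖evo G (v2 x' u) t 0‖ ^ 2 := by
      rw [← integral_const_mul]
      refine integral_mono_of_nonneg (Filter.Eventually.of_forall fun u => by positivity) (iu.const_mul 16)
        (Filter.Eventually.of_forall fun u => ?_)
      simp only [hg]
      rw [← mul_assoc]
      gcongr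
      have h8 : 1 + w * |x1 - u| ≤ 2 * (1 + |(y - u) / (64 * S)|) := by
        have h9 : |x1 - u| ≤ |x1 - y| + |y - u| := abs_sub_le _ _ _
        have h10 : |y - u| = 64 * S * |(y - u) / (64 * S)| := by
          rw [abs_div, abs_of_pos (by positivity : (0 : ℝ) < 64 * S)]
          field_simp
        have h11 : w * |x1 - u| ≤ w * (S + 64 * S * |(y - u) / (64 * S)|) := by
          rw [← h10]
          gcongr
          linarith
        have h12 : 0 ≤ |(y - u) / (64 * S)| := abs_nonneg _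
        nlinarith
      rw [← one_div, ← one_div, div_le_iff₀ (by positivity), mul_one_div, div_mul_eq_mul_div, le_div_iff₀ (by positivity), one_mul]
      calc (1 + w * |x1 - u|) ^ 4 ≤ (2 * (1 + |(y - u) / (64 * S)|)) ^ 4 := by gcongr
        _ = 16 * (1 + |(y - u) / (64 * S)|) ^ 4 := by ring
    calc (64 * S)⁻¹ * ∫ u, g u ≤ (4 * w) * (16 * ∫ u : ℝ, ((1 + w * |x1 - u|) ^ 4)⁻¹ * ‖evo G (v2 x' u) t 0‖ ^ 2) := by
          have : 0 ≤ ∫ u, g u := integral_nonneg fun u => by positivity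
          gcongr
      _ = _ := by ring
  have hpos : 0 ≤ w * ∫ u : ℝ, ((1 + w * |x1 - u|) ^ 4)⁻¹ * ‖evo G (v2 x' u) t 0‖ ^ 2 :=
    mul_nonneg hw.le (integral_nonneg fun u => by positivity)
  calc ‖sol (sl S j y τ G) x' (t - τ)‖ ^ 2 ≤ (∫ r, ‖K r‖ * ‖evo G (v2 x' (y - 64 * S * r)) t 0‖) ^ 2 := by gcongr
    _ ≤ (∫ r, ‖K r‖) * ∫ r, ‖K r‖ * ‖evo G (v2 x' (y - 64 * S * r)) t 0‖ ^ 2 := hcs
    _ ≤ (C * c4) * (C * (64 * (w * ∫ u : ℝ, ((1 + w * |x1 - u|) ^ 4)⁻¹ * ‖evo G (v2 x' u) t 0‖ ^ 2))) := by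
        have h13 : 0 ≤ ∫ r, ‖K r‖ * ‖evo G (v2 x' (y - 64 * S * r)) t 0‖ ^ 2 := integral_nonneg fun r => by positivity
        have h14 := hB2.trans (mul_le_mul_of_nonneg_left hB3 hC.le)
        gcongr
    _ ≤ _ := by nlinarith

theorem stEN : StEN := by
  obtain ⟨C, hC, hp⟩ := sl_pt
  refine ⟨C, hC, fun S T w y τ G x t j hS hST h1 h2 hG hxy ht => ?_⟩
  have hw : 0 < w := by
    by_contra hc
    push Not at hc
    have : S * w ≤ 0 := mul_nonpos_of_nonneg_of_nonpos hS.le hc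
    linarith
  have hT : 0 < T := hS.trans_le hST
  obtain ⟨B, hB0, hB⟩ := evo_bd hG t
  have hI : Integrable (fun q : ℝ × ℝ => ((1 + w * |x 1 - q.2|) ^ 4)⁻¹ * X.W T (x 0 - q.1) * ‖evo G (v2 q.1 q.2) t 0‖ ^ 2)
      ((volume : Measure ℝ).prod volume) := by
    have i1 := ((H972.integrable_W hT).comp_sub_left (x 0)).mul_prod (r4s_int hw (x 1))
    have i2 := i1.mul_bdd (c := B ^ 2) (g := fun q : ℝ × ℝ => ‖evo G (v2 q.1 q.2) t 0‖ ^ 2)
      ((evo_cont hG t).norm.pow 2).aestronglyMeasurable (Filter.Eventually.of_forall fun r => by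
        rw [Real.norm_of_nonneg (by positivity)]
        gcongr
        exact hB _ _)
    refine i2.congr (Filter.Eventually.of_forall fun q => ?_)
    simp only
    ring
  have e1 : eG T w G x t = w * ∫ x' : ℝ, ∫ u : ℝ, ((1 + w * |x 1 - u|) ^ 4)⁻¹ * X.W T (x 0 - x') * ‖evo G (v2 x' u) t 0‖ ^ 2 := by
    unfold eG
    rw [int2, Measure.volume_eq_prod]
    congr 1
    exact integral_prod (fun q : ℝ × ℝ => ((1 + w * |x 1 - q.2|) ^ 4)⁻¹ * X.W T (x 0 - q.1) * ‖evo G (v2 q.1 q.2) t 0‖ ^ 2) hI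
  rw [e1, ← integral_const_mul, ← integral_const_mul]
  refine integral_mono_of_nonneg (Filter.Eventually.of_forall fun x' => mul_nonneg (H972.W_nonneg hT _) (by positivity))
    ((hI.integral_prod_left.const_mul w).const_mul C) (Filter.Eventually.of_forall fun x' => ?_)
  simp only
  have h5 := hp S w y τ G (x 1) t j hS h1 h2 hG hxy ht x'
  have e2 : ∫ u : ℝ, ((1 + w * |x 1 - u|) ^ 4)⁻¹ * X.W T (x 0 - x') * ‖evo G (v2 x' u) t 0‖ ^ 2 =
      X.W T (x 0 - x') * ∫ u : ℝ, ((1 + w * |x 1 - u|) ^ 4)⁻¹ * ‖evo G (v2 x' u) t 0‖ ^ 2 := by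
    rw [← integral_const_mul]
    apply integral_congr_ae
    refine Filter.Eventually.of_forall fun u => ?_
    simp only
    ring
  rw [e2]
  calc X.W T (x 0 - x') * ‖sol (sl S j y τ G) x' (t - τ)‖ ^ 2 ≤
        X.W T (x 0 - x') * (C * (w * ∫ u : ℝ, ((1 + w * |x 1 - u|) ^ 4)⁻¹ * ‖evo G (v2 x' u) t 0‖ ^ 2)) :=
          mul_le_mul_of_nonneg_left h5 (H972.W_nonneg hT _)
    _ = _ := by ring

end Vale.Agent.P076.H281
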