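import Vale.Agent.P076.X.Defs

/-! # P076 / H281 : TS.SLICE, the kernel of the multipliers `e(τ v²) v^j` on `|v| ≤ 1/2` (decay uniform in `j`) -/

set_option linter.all false

open MeasureTheory Complex FourierTransform
open scoped ContDiff

namespace Vale.Agent.P076.H281

open Vale.Agent.P076.X (ex)

/-- the multiplier `v^j e^{iτv²} ψ(v)` -/
noncomputable def nf (ψ : ℝ → ℂ) (τ : ℝ) (j : ℕ) (v : ℝ) : ℂ := (v : ℂ) ^ j * cexp (I * τ * (v : ℂ) ^ 2) * ψ v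

theorem nf_cd {ψ : ℝ → ℂ} (hψ : ContDiff ℝ ∞ ψ) (τ : ℝ) (j : ℕ) : ContDiff ℝ ∞ (nf ψ τ j) := by
  unfold nf
  have h1 : ContDiff ℝ ∞ (fun v : ℝ => (v : ℂ)) := Complex.ofRealCLM.contDiff
  exact ((h1.pow j).mul ((contDiff_const.mul (h1.pow 2)).cexp)).mul hψ

theorem nf_z {ψ : ℝ → ℂ} (h0 : ∀ v, 3 / 4 < |v| → ψ v = 0) (τ : ℝ) (j : ℕ) (v : ℝ) (hv : 3 / 4 < |v|) : nf ψ τ j v = 0 := by
  simp [nf, h0 v hv]

theorem idz {f : ℝ → ℂ} (h0 : ∀ v, 3 / 4 < |v| → f v = 0) (n : ℕ) (v : ℝ) (hv : 3 / 4 < |v|) : iteratedDeriv n f v = 0 := by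
  have h1 : f =ᶠ[nhds v] fun _ => 0 := by
    have ho : IsOpen {v : ℝ | 3 / 4 < |v|} := isOpen_lt continuous_const continuous_abs
    filter_upwards [ho.mem_nhds hv] with u hu using h0 u hu
  rw [h1.iteratedDeriv_eq]
  simp

theorem bdd_of {ψ : ℝ → ℂ} (hψ : Continuous ψ) (h0 : ∀ v, 3 / 4 < |v| → ψ v = 0) : ∃ B : ℝ, 0 ≤ B ∧ ∀ v, ‖ψ v‖ ≤ B := by
  have hc : HasCompactSupport ψ := by
    apply HasCompactSupport.intro (isCompact_closedBall (0 : ℝ) (3 / 4))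
    intro x hx
    apply h0
    simpa [Metric.mem_closedBall, Real.dist_eq] using hx
  obtain ⟨B, hB⟩ := hψ.bounded_above_of_compact_support hc
  exact ⟨B, (norm_nonneg _).trans (hB 0), hB⟩

theorem geo_bd (a : ℕ) : ∃ C : ℝ, 0 ≤ C ∧ ∀ j : ℕ, (1 + j : ℝ) ^ a * (3 / 4) ^ j ≤ C := by
  have h := tendsto_pow_const_mul_const_pow_of_lt_one a (show (0 : ℝ) ≤ 3 / 4 by norm_num) (by norm_num)
  obtain ⟨C, hC⟩ := h.bddAbove_range
  refine ⟨max 0 (C * (4 / 3)), le_max_left _ _, fun j => ?_⟩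
  have h1 := hC ⟨j + 1, rfl⟩
  simp only at h1
  push_cast at h1
  refine le_trans ?_ (le_max_right _ _)
  have e : (1 + j : ℝ) ^ a * (3 / 4) ^ j = ((j + 1 : ℝ) ^ a * (3 / 4) ^ (j + 1)) * (4 / 3) := by
    rw [pow_succ (3 / 4 : ℝ) j]; ring
  rw [e]
  gcongr

theorem nf_deriv {ψ : ℝ → ℂ} (hψ : ContDiff ℝ ∞ ψ) (τ : ℝ) (j : ℕ) : deriv (nf ψ τ j) =
    fun v => (j : ℂ) * nf ψ τ (j - 1) v + (2 * I * τ * nf (fun v => (v : ℂ) * ψ v) τ j v + nf (deriv ψ) τ j v) := by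
  funext v
  have hd : HasDerivAt ψ (deriv ψ v) v := (hψ.differentiable (by simp)).differentiableAt.hasDerivAt
  have h1 : HasDerivAt (fun v : ℝ => (v : ℂ)) 1 v := Complex.ofRealCLM.hasDerivAt
  have h2 : HasDerivAt (fun v : ℝ => (v : ℂ) ^ j) ((j : ℂ) * (v : ℂ) ^ (j - 1) * 1) v := h1.pow j
  have h3 : HasDerivAt (fun v : ℝ => cexp (I * τ * (v : ℂ) ^ 2))
      (cexp (I * τ * (v : ℂ) ^ 2) * (I * τ * (((2 : ℕ) : ℂ) * (v : ℂ) ^ (2 - 1) * 1))) v := ((h1.pow 2).const_mul (I * τ)).cexp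
  have h4 := ((h2.mul h3).mul hd).deriv
  have e : nf ψ τ j = ((fun v : ℝ => (v : ℂ) ^ j) * fun v : ℝ => cexp (I * τ * (v : ℂ) ^ 2)) * ψ := by
    funext v; simp [nf]
  rw [e, h4]
  simp only [nf, Pi.mul_apply]
  push_cast
  ring

theorem nf_bd (n : ℕ) : ∀ ψ : ℝ → ℂ, ContDiff ℝ ∞ ψ → (∀ v, 3 / 4 < |v| → ψ v = 0) → ∀ a : ℕ, ∃ C : ℝ, 0 ≤ C ∧
    ∀ (j : ℕ) (τ v : ℝ), |τ| ≤ 1 → (1 + j : ℝ) ^ a * ‖iteratedDeriv n (nf ψ τ j) v‖ ≤ C := by
  induction n with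
  | zero =>
    intro ψ hψ h0 a
    obtain ⟨B, hB0, hB⟩ := bdd_of hψ.continuous h0
    obtain ⟨C, hC0, hC⟩ := geo_bd a
    refine ⟨C * B, by positivity, fun j τ v hτ => ?_⟩
    rw [iteratedDeriv_zero]
    by_cases hv : 3 / 4 < |v|
    · rw [nf_z h0 τ j v hv]; simp; positivity
    · push Not at hv
      have e1 : ‖cexp (I * τ * (v : ℂ) ^ 2)‖ = 1 := by
        have : I * τ * (v : ℂ) ^ 2 = ((τ * v ^ 2 : ℝ) : ℂ) * I := by push_cast; ring
        rw [this, Complex.norm_exp_ofReal_mul_I]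
      have e2 : ‖nf ψ τ j v‖ ≤ (3 / 4) ^ j * B := by
        unfold nf
        rw [norm_mul, norm_mul, e1, mul_one, norm_pow, Complex.norm_real, Real.norm_eq_abs]
        gcongr
        exact hB v
      calc (1 + j : ℝ) ^ a * ‖nf ψ τ j v‖ ≤ (1 + j : ℝ) ^ a * ((3 / 4) ^ j * B) := by gcongr
        _ = ((1 + j : ℝ) ^ a * (3 / 4) ^ j) * B := by ring
        _ ≤ C * B := by gcongr; exact hC j
  | succ n ih =>
    intro ψ hψ h0 a
    have hψ1 : ContDiff ℝ ∞ (fun v : ℝ => (v : ℂ) * ψ v) := Complex.ofRealCLM.contDiff.mul hψ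
    have hψ2 : ContDiff ℝ ∞ (deriv ψ) := by
      exact (contDiff_infty_iff_deriv.1 hψ).2
    have h01 : ∀ v, 3 / 4 < |v| → (fun v : ℝ => (v : ℂ) * ψ v) v = 0 := by
      intro v hv; simp [h0 v hv]
    have h02 : ∀ v, 3 / 4 < |v| → deriv ψ v = 0 := by
      intro v hv
      have := idz h0 1 v hv
      rwa [iteratedDeriv_one] at this
    obtain ⟨C1, hC10, hC1⟩ := ih ψ hψ h0 (a + 1)
    obtain ⟨C2, hC20, hC2⟩ := ih _ hψ1 h01 a
    obtain ⟨C3, hC30, hC3⟩ := ih _ hψ2 h02 a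
    refine ⟨2 ^ a * C1 + (2 * C2 + C3), by positivity, fun j τ v hτ => ?_⟩
    rw [iteratedDeriv_succ', nf_deriv hψ]
    have c1 : ContDiffAt ℝ n (nf ψ τ (j - 1)) v := ((nf_cd hψ τ (j - 1)).of_le (by exact_mod_cast le_top)).contDiffAt
    have c2 : ContDiffAt ℝ n (nf (fun v : ℝ => (v : ℂ) * ψ v) τ j) v :=
      ((nf_cd hψ1 τ j).of_le (by exact_mod_cast le_top)).contDiffAt
    have c3 : ContDiffAt ℝ n (nf (deriv ψ) τ j) v := ((nf_cd hψ2 τ j).of_le (by exact_mod_cast le_top)).contDiffAt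
    have e : iteratedDeriv n (fun v => (j : ℂ) * nf ψ τ (j - 1) v +
        (2 * I * τ * nf (fun v => (v : ℂ) * ψ v) τ j v + nf (deriv ψ) τ j v)) v =
        (j : ℂ) * iteratedDeriv n (nf ψ τ (j - 1)) v + (2 * I * τ * iteratedDeriv n (nf (fun v => (v : ℂ) * ψ v) τ j) v +
          iteratedDeriv n (nf (deriv ψ) τ j) v) := by
      have a1 : ContDiffAt ℝ n (fun v => (j : ℂ) * nf ψ τ (j - 1) v) v := contDiffAt_const.mul c1
      have a2 : ContDiffAt ℝ n (fun v => 2 * I * τ * nf (fun v => (v : ℂ) * ψ v) τ j v) v := contDiffAt_const.mul c2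
      have b1 := iteratedDeriv_add (n := n) (x := v) a1 (a2.add c3)
      have b2 := iteratedDeriv_add (n := n) (x := v) a2 c3
      have b3 := iteratedDeriv_const_mul (n := n) (x := v) (j : ℂ) c1
      have b4 := iteratedDeriv_const_mul (n := n) (x := v) (2 * I * τ : ℂ) c2
      refine Eq.trans (Eq.trans rfl b1) ?_
      rw [b3]
      refine congrArg₂ _ rfl ?_
      exact (Eq.trans (Eq.trans rfl b2) (by rw [b4]))
    rw [e]
    have n1 : ‖(j : ℂ) * iteratedDeriv n (nf ψ τ (j - 1)) v + (2 * I * τ * iteratedDeriv n (nf (fun v => (v : ℂ) * ψ v) τ j) v +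
          iteratedDeriv n (nf (deriv ψ) τ j) v)‖ ≤ j * ‖iteratedDeriv n (nf ψ τ (j - 1)) v‖ +
          (2 * ‖iteratedDeriv n (nf (fun v => (v : ℂ) * ψ v) τ j) v‖ + ‖iteratedDeriv n (nf (deriv ψ) τ j) v‖) := by
      refine (norm_add_le _ _).trans (add_le_add ?_ ((norm_add_le _ _).trans (add_le_add ?_ le_rfl)))
      · rw [norm_mul, Complex.norm_natCast]
      · rw [norm_mul]
        gcongr
        simp only [norm_mul, Complex.norm_ofNat, Complex.norm_I, mul_one, Complex.norm_real, Real.norm_eq_abs]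
        linarith
    have m1 : (1 + j : ℝ) ^ a * (j * ‖iteratedDeriv n (nf ψ τ (j - 1)) v‖) ≤ 2 ^ a * C1 := by
      rcases Nat.eq_zero_or_pos j with hj | hj
      · subst hj; simp; positivity
      · obtain ⟨k, rfl⟩ : ∃ k, j = k + 1 := ⟨j - 1, by omega⟩
        have h := hC1 k τ v hτ
        simp only [Nat.add_sub_cancel]
        push_cast
        have h2 : (1 + (k + 1 : ℝ)) ^ a ≤ 2 ^ a * (1 + k : ℝ) ^ a := by
          rw [← mul_pow]
          gcongr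
          have : (0 : ℝ) ≤ k := k.cast_nonneg
          linarith
        calc (1 + (k + 1 : ℝ)) ^ a * ((k + 1 : ℝ) * ‖iteratedDeriv n (nf ψ τ k) v‖)
            ≤ (2 ^ a * (1 + k : ℝ) ^ a) * ((k + 1 : ℝ) * ‖iteratedDeriv n (nf ψ τ k) v‖) := by gcongr
          _ = 2 ^ a * ((1 + k : ℝ) ^ (a + 1) * ‖iteratedDeriv n (nf ψ τ k) v‖) := by ring
          _ ≤ 2 ^ a * C1 := by gcongr
    have m2 := hC2 j τ v hτ
    have m3 := hC3 j τ v hτ
    calc (1 + j : ℝ) ^ a * _ ≤ (1 + j : ℝ) ^ a * (j * ‖iteratedDeriv n (nf ψ τ (j - 1)) v‖ +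
          (2 * ‖iteratedDeriv n (nf (fun v => (v : ℂ) * ψ v) τ j) v‖ + ‖iteratedDeriv n (nf (deriv ψ) τ j) v‖)) := by gcongr
      _ = (1 + j : ℝ) ^ a * (j * ‖iteratedDeriv n (nf ψ τ (j - 1)) v‖) +
          (2 * ((1 + j : ℝ) ^ a * ‖iteratedDeriv n (nf (fun v => (v : ℂ) * ψ v) τ j) v‖) +
            (1 + j : ℝ) ^ a * ‖iteratedDeriv n (nf (deriv ψ) τ j) v‖) := by ring
      _ ≤ 2 ^ a * C1 + (2 * C2 + C3) := by gcongr

theorem ex_eq (x : ℝ) : ex x = (Real.fourierChar x : ℂ) := by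
  rw [Real.fourierChar_apply]
  unfold ex
  push_cast
  ring_nf

/-- the kernel: `∫ K(r) e(-r v) dr = v^j e^{iτv²}` for `|v| ≤ 1/2` -/
theorem kern : ∃ C : ℝ, 0 < C ∧ ∀ (j : ℕ) (τ : ℝ), |τ| ≤ 1 → ∃ K : ℝ → ℂ, Continuous K ∧
    (∀ r, ‖K r‖ ≤ C * ((1 + |r|) ^ 4)⁻¹) ∧
    ∀ v : ℝ, |v| ≤ 1 / 2 → ∫ r, K r * ex (-(r * v)) = (v : ℂ) ^ j * cexp (I * τ * (v : ℂ) ^ 2) := by
  let b : ContDiffBump (0 : ℝ) := ⟨1 / 2, 3 / 4, by norm_num, by norm_num⟩
  set ψ : ℝ → ℂ := fun v => ((b v : ℝ) : ℂ) with hψd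
  have hψ : ContDiff ℝ ∞ ψ := Complex.ofRealCLM.contDiff.comp b.contDiff
  have h0 : ∀ v, 3 / 4 < |v| → ψ v = 0 := by
    intro v hv
    have : b v = 0 := b.zero_of_le_dist (by
      rw [Real.dist_eq, sub_zero]; exact hv.le)
    simp [hψd, this]
  have h1 : ∀ v, |v| ≤ 1 / 2 → ψ v = 1 := by
    intro v hv
    have : b v = 1 := b.one_of_mem_closedBall (by
      rw [Metric.mem_closedBall, Real.dist_eq, sub_zero]; exact hv)
    simp [hψd, this]
  obtain ⟨C0, hC00, hC0⟩ := nf_bd 0 ψ hψ h0 0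
  obtain ⟨C4, hC40, hC4⟩ := nf_bd 4 ψ hψ h0 0
  refine ⟨16 * (2 * C0 + 2 * C4) + 1, by positivity, fun j τ hτ => ?_⟩
  set N := nf ψ τ j with hN
  have hNc : ContDiff ℝ ∞ N := nf_cd hψ τ j
  have hNz : ∀ v, 3 / 4 < |v| → N v = 0 := nf_z h0 τ j
  have hcs : ∀ n, HasCompactSupport (iteratedDeriv n N) := by
    intro n
    apply HasCompactSupport.intro (isCompact_closedBall (0 : ℝ) (3 / 4))
    intro x hx
    apply idz hNz
    simpa [Metric.mem_closedBall, Real.dist_eq] using hx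
  have hcont : ∀ n, Continuous (iteratedDeriv n N) := by
    intro n
    exact hNc.continuous_iteratedDeriv n (by exact_mod_cast le_top)
  have hint : ∀ n : ℕ, Integrable (iteratedDeriv n N) := fun n => (hcont n).integrable_of_hasCompactSupport (hcs n)
  have hbdI : ∀ (n : ℕ) (C : ℝ), 0 ≤ C → (∀ v, ‖iteratedDeriv n N v‖ ≤ C) → ∫ v, ‖iteratedDeriv n N v‖ ≤ 2 * C := by
    intro n C hC h
    have e : ∫ v, ‖iteratedDeriv n N v‖ = ∫ v in Set.Icc (-3 / 4 : ℝ) (3 / 4), ‖iteratedDeriv n N v‖ := by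
      rw [setIntegral_eq_integral_of_forall_compl_eq_zero]
      intro x hx
      rw [idz hNz n x, norm_zero]
      by_contra hc
      push Not at hc
      apply hx
      rw [abs_le] at hc
      exact ⟨by linarith [hc.1], hc.2⟩
    rw [e]
    have h2 := norm_setIntegral_le_of_norm_le_const (μ := volume) (s := Set.Icc (-3 / 4 : ℝ) (3 / 4)) (C := C)
      (f := fun v => ‖iteratedDeriv n N v‖) (by simp) (fun x _ => by simpa using h x)
    have h3 : (volume.real (Set.Icc (-3 / 4 : ℝ) (3 / 4))) = 3 / 2 := by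
      rw [Measure.real, Real.volume_Icc]
      norm_num
    rw [h3] at h2
    calc _ ≤ ‖∫ v in Set.Icc (-3 / 4 : ℝ) (3 / 4), ‖iteratedDeriv n N v‖‖ := le_abs_self _
      _ ≤ C * (3 / 2) := h2
      _ ≤ 2 * C := by linarith
  have g0 : ∀ v, ‖iteratedDeriv 0 N v‖ ≤ C0 := fun v => by simpa using hC0 j τ v hτ
  have g4 : ∀ v, ‖iteratedDeriv 4 N v‖ ≤ C4 := fun v => by simpa using hC4 j τ v hτ
  have d0 : ∀ x : ℝ, ‖𝓕 N x‖ ≤ 2 * C0 := by
    intro x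
    have h2 : ‖𝓕 N x‖ ≤ ∫ v, ‖N v‖ := VectorFourier.norm_fourierIntegral_le_integral_norm _ _ _ _ _
    have h3 := hbdI 0 C0 hC00 g0
    rw [iteratedDeriv_zero] at h3
    exact h2.trans h3
  have d4 : ∀ x : ℝ, x ^ 4 * ‖𝓕 N x‖ ≤ 2 * C4 := by
    intro x
    have h2 : ‖𝓕 (iteratedDeriv 4 N) x‖ ≤ ∫ v, ‖iteratedDeriv 4 N v‖ :=
      VectorFourier.norm_fourierIntegral_le_integral_norm _ _ _ _ _
    have h3 := hbdI 4 C4 hC40 g4
    have h4 := Real.fourier_iteratedDeriv (N := ⊤) (n := 4) (f := N) hNc (fun n _ => hint n) le_top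
    rw [h4] at h2
    simp only [norm_smul, norm_pow, norm_mul, Complex.norm_ofNat, Complex.norm_real, Complex.norm_I, mul_one,
      Real.norm_eq_abs, abs_of_pos Real.pi_pos] at h2
    have h5 : x ^ 4 ≤ (2 * Real.pi * |x|) ^ 4 := by
      have : x ^ 4 = |x| ^ 4 := by rw [← abs_pow, abs_of_nonneg (by positivity)]
      rw [this]
      apply pow_le_pow_left₀ (abs_nonneg _)
      have := Real.pi_gt_three
      nlinarith [abs_nonneg x]
    calc x ^ 4 * ‖𝓕 N x‖ ≤ (2 * Real.pi * |x|) ^ 4 * ‖𝓕 N x‖ := by gcongr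
      _ ≤ _ := h2.trans h3
  have dd : ∀ x : ℝ, ‖𝓕 N x‖ ≤ (16 * (2 * C0 + 2 * C4) + 1) * ((1 + |x|) ^ 4)⁻¹ := by
    intro x
    have h5 : (1 + |x|) ^ 4 ≤ 8 * (1 + x ^ 4) := by
      have e4 : x ^ 4 = |x| ^ 4 := by rw [← abs_pow, abs_of_nonneg (by positivity)]
      rw [e4]
      nlinarith [sq_nonneg (|x| - 1), sq_nonneg (|x| ^ 2 - 1), sq_nonneg (|x| * (|x| - 1)), abs_nonneg x,
        sq_nonneg (|x| ^ 2 - |x|)]
    rw [← div_eq_mul_inv, le_div_iff₀ (by positivity)]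
    calc ‖𝓕 N x‖ * (1 + |x|) ^ 4 ≤ ‖𝓕 N x‖ * (8 * (1 + x ^ 4)) := by gcongr
      _ = 8 * (‖𝓕 N x‖ + x ^ 4 * ‖𝓕 N x‖) := by ring
      _ ≤ 8 * (2 * C0 + 2 * C4) := by linarith [d0 x, d4 x]
      _ ≤ _ := by nlinarith
  have hFc : Continuous (𝓕 N) := by
    have := VectorFourier.fourierIntegral_continuous (μ := (volume : Measure ℝ)) Real.continuous_fourierChar
      (L := innerₗ ℝ) (continuous_inner) (hint 0)
    rw [iteratedDeriv_zero] at this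
    exact this
  have hFi : Integrable (𝓕 N) := by
    refine Integrable.mono' ((integrable_inv_one_add_sq).const_mul (16 * (2 * C0 + 2 * C4) + 1))
      hFc.aestronglyMeasurable (Filter.Eventually.of_forall fun x => (dd x).trans ?_)
    gcongr
    nlinarith [abs_nonneg x, sq_abs x, sq_nonneg (|x| ^ 2), pow_nonneg (abs_nonneg x) 3]
  have hinv := Continuous.fourier_fourierInv_eq (f := N) hNc.continuous (by simpa using hint 0) hFi
  have hK : ∀ r, 𝓕⁻ N r = 𝓕 N (-r) := fun r => Real.fourierInv_eq_fourier_neg N r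
  refine ⟨𝓕⁻ N, ?_, fun r => ?_, fun v hv => ?_⟩
  · have : 𝓕⁻ N = fun r => 𝓕 N (-r) := funext hK
    rw [this]
    exact hFc.comp continuous_neg
  · rw [hK]
    simpa using dd (-r)
  · have h2 := congrFun hinv v
    rw [Real.fourier_real_eq] at h2
    have h3 : N v = (v : ℂ) ^ j * cexp (I * τ * (v : ℂ) ^ 2) := by
      rw [hN]; unfold nf
      rw [h1 v hv, mul_one]
    rw [← h3, ← h2]
    congr 1
    funext r
    rw [ex_eq, Circle.smul_def, smul_eq_mul, mul_comm]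

end Vale.Agent.P076.H281
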